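import Vale.Agent.P348.MathlibUsed

namespace Vale.Agent.P348

open Matrix

noncomputable section

/-- The spin-one matrices `S^x, S^y, S^z` in the standard basis. -/
def spin : Fin 3 → Matrix (Fin 3) (Fin 3) ℂ :=
  ![!![0, ((Real.sqrt 2 : ℝ) : ℂ)⁻¹, 0;
       ((Real.sqrt 2 : ℝ) : ℂ)⁻¹, 0, ((Real.sqrt 2 : ℝ) : ℂ)⁻¹;
       0, ((Real.sqrt 2 : ℝ) : ℂ)⁻¹, 0],
    !![0, -Complex.I * ((Real.sqrt 2 : ℝ) : ℂ)⁻¹, 0;
       Complex.I * ((Real.sqrt 2 : ℝ) : ℂ)⁻¹, 0, -Complex.I * ((Real.sqrt 2 : ℝ) : ℂ)⁻¹;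
       0, Complex.I * ((Real.sqrt 2 : ℝ) : ℂ)⁻¹, 0],
    !![1, 0, 0; 0, 0, 0; 0, 0, -1]]

/-- The operator acting as `A` on the tensor factor `j` and as the identity on the others. -/
def onSite {L : ℕ} (j : Fin L) (A : Matrix (Fin 3) (Fin 3) ℂ) :
    Matrix (Fin L → Fin 3) (Fin L → Fin 3) ℂ :=
  fun s t => if ∀ i, i ≠ j → s i = t i then A (s j) (t j) else 0

/-- The spin-one Heisenberg antiferromagnet on the periodic ring of `L` sites. -/
def haldaneH (L : ℕ) [NeZero L] : Matrix (Fin L → Fin 3) (Fin L → Fin 3) ℂ :=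
  ∑ j : Fin L, ∑ a : Fin 3, onSite j (spin a) * onSite (j + 1) (spin a)

/-- The set of (real) eigenvalues of the Hamiltonian. -/
def energies (L : ℕ) [NeZero L] : Set ℝ :=
  {E | ∃ ψ : (Fin L → Fin 3) → ℂ, ψ ≠ 0 ∧ (haldaneH L).mulVec ψ = (E : ℂ) • ψ}

/-- The least eigenvalue. -/
def E0 (L : ℕ) [NeZero L] : ℝ := sInf (energies L)

/-- The next distinct eigenvalue. -/
def E1 (L : ℕ) [NeZero L] : ℝ := sInf {E ∈ energies L | E0 L < E}

/-- The spectral gap. -/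
def gap (L : ℕ) [NeZero L] : ℝ := E1 L - E0 L

/-- The quantity `Δ₁`: the lower limit of the gaps along even lengths. -/
def Delta1 : EReal :=
  Filter.liminf (fun m : ℕ => ((gap (2 * m + 4) : ℝ) : EReal)) Filter.atTop

end

end Vale.Agent.P348
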