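import Mathlib.Algebra.GroupWithZero.Action.Pointwise.Finset
import Mathlib.Algebra.Order.Archimedean.Real.Hom
import Mathlib.Algebra.Order.Star.Real
import Mathlib.Algebra.Ring.Action.Pointwise.Finset
import Mathlib.Analysis.CStarAlgebra.Classes
import Mathlib.Analysis.Complex.ExponentialBounds
import Mathlib.Analysis.Matrix.Spectrum
import Mathlib.Analysis.Normed.Algebra.MatrixExponential
import Mathlib.Analysis.Subadditive
import Mathlib.Computability.Reduce
import Mathlib.Data.Int.Star
import Mathlib.Data.Nat.Bitwise
import Mathlib.LinearAlgebra.Matrix.FiniteDimensional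
import Mathlib.LinearAlgebra.Matrix.PosDef
import Mathlib.Tactic
import Mathlib.Topology.Order.LowerUpperTopology

/-! The part of Mathlib that the development of this folder uses. -/
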